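import Crest.Agent.X262.Ends.Pl
import Crest.Agent.X262.Tr89.Pb
import Crest.Agent.X262.Vb37.Univ

/-!
# Row 262, road B, ENDS (helper14): positivity of the insertion

* `exists_list` : a product of hyperplane classes on a generically finite cover of a product;
* `posStmt`     : `Ends.PosStmt`.
-/

set_option autoImplicit false
set_option linter.unusedSectionVars false
set_option linter.style.haveILetI false

noncomputable section

namespace Crest.Agent.X262.NumPos

open Crest.Agent.X277 Crest.Agent.X277.BD Polynomial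
open Crest.Agent.X262.Hb Crest.Agent.X262.Vb Crest.Agent.X262.Ends Crest.Agent.X262.Vb37
open Crest.Agent.X262.Tr89 (pc pc_cons pc_nil pc_append fib lin_mxf_div)
open Crest.Agent.X262.Bub96 (hv)
open Crest.Agent.X262.Loc (eftSub dim_self dim_tower)
open List (replicate)
open IntermediateField (adjoin)
open Matrix

section Num

variable {k F : Type} [Field k] [Field F] [Algebra k F] [CharZero k] [Algebra.EssFiniteType k F]
  {J : Type}

/-- multilinear expansion -/
theorem exists_exp (s : Finset J) (h : J → BD k F) : ∀ (m : ℕ) (l : List (BD k F)),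
    bnum (replicate m (∑ j ∈ s, h j) ++ l) ≠ 0 →
    ∃ L : List J, L.length = m ∧ (∀ j ∈ L, j ∈ s) ∧ bnum (L.map h ++ l) ≠ 0
  | 0, _, h0 => ⟨[], rfl, by simp, h0⟩
  | m + 1, l, h0 => by
    rw [List.replicate_succ, List.cons_append, bnum_sum] at h0
    obtain ⟨j, hj, h1⟩ := Finset.exists_ne_zero_of_sum_ne_zero h0
    rw [bnum_perm List.perm_middle.symm] at h1
    obtain ⟨L, h2, h3, h4⟩ := exists_exp s h m _ h1
    exact ⟨j :: L, by simp [h2], List.forall_mem_cons.2 ⟨hj, h3⟩, by
      rwa [List.map_cons, List.cons_append, bnum_perm List.perm_middle.symm]⟩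

theorem zero_mxf {ι : Type} [Fintype ι] {y : ι → F} (hy : ∃ i, y i ≠ 0) {m : ℕ}
    (hm : dim k (qf k y) < m) (l : List (BD k F)) : bnum (replicate m (mxf k y) ++ l) = 0 := by
  obtain ⟨i, hi⟩ := hy
  have h1 : Lin (mxf k y) (pb (qf k y).val (mxf k fun j => ⟨y j / y i, div_mem_qf y i j⟩)) := by
    rw [pb_mxf]
    exact lin_mxf_div hi ⟨i, hi⟩
  rw [bnum_comm, Loc.bnum_rep_lin h1, bnum_comm, ← List.map_replicate,
    bnum_pb_zero _ (by simpa using hm)]

theorem sum_count [Fintype J] [DecidableEq J] (L : List J) : ∑ j, L.count j = L.length := by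
  simpa using Multiset.sum_count_eq_card (s := Finset.univ) (m := (L : Multiset J)) (by simp)

/-- a product of hyperplane classes on a generically finite cover of a product -/
theorem exists_list [Fintype J] [DecidableEq J] {ι : J → Type} [∀ j, Fintype (ι j)]
    (y : ∀ j, ι j → F) (ν : J → ℕ) (hnz : ∀ j, ν j ≠ 0 → ∃ i, y j i ≠ 0)
    (hd : ∀ j, ν j ≠ 0 → dim k (qf k (y j)) ≤ ν j) (hn : ∑ j, ν j = dim k F)
    (halg : ∀ x : F, IsAlgebraic (adjoin k {t | ∃ j i i', ν j ≠ 0 ∧ t = y j i / y j i'}) x) :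
    ∃ L : List J, (∀ j, L.count j = ν j) ∧ bnum (L.map fun j => mxf k (y j)) ≠ 0 := by
  let s := Finset.univ.filter fun j => ν j ≠ 0
  have hf : ∀ s : Finset J, Free (∑ j ∈ s, mxf k (y j)) := fun s => Free.sum _ fun _ _ => free_mxf _
  have hb : Big (∑ j ∈ s, mxf k (y j)) := by
    refine big_of_alg (hf s).eff ⟨fun x => isAlg_mono ?_ (halg x)⟩
    refine IntermediateField.adjoin_le_iff.2 ?_
    rintro _ ⟨j, i, i', hj, rfl⟩
    obtain ⟨g, hg, h0⟩ := (hf (s.erase j)).eff
    rw [← Finset.add_sum_erase s _ (show j ∈ s by simpa [s] using hj)]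
    exact sf_le_add hg h0 (qf_le_sf _ (div_mem_qf _ _ _))
  have h1 := bnum_pos (l := replicate (dim k F) (∑ j ∈ s, mxf k (y j))) (by simp)
    (all_rp ⟨(hf s).nef, hb⟩ _)
  obtain ⟨L, h2, h3, h4⟩ := exists_exp s (fun j => mxf k (y j)) (dim k F) [] (by simpa using h1.ne')
  rw [List.append_nil] at h4
  have h5 : ∀ j, L.count j ≤ ν j := fun j => by
    by_cases hj : ν j = 0
    · rw [List.count_eq_zero_of_not_mem fun h => by simpa [s, hj] using h3 j h]
      exact Nat.zero_le _
    · by_contra h6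
      rw [bnum_perm ((List.filter_append_perm (· = j) L).symm.map _), List.filter_eq,
        List.map_append, List.map_replicate] at h4
      exact h4 (zero_mxf (hnz j hj) ((hd j hj).trans_lt (not_le.1 h6)) _)
  refine ⟨L, fun j => ?_, h4⟩
  exact (Finset.sum_eq_sum_iff_of_le fun j _ => h5 j).1 (by rw [sum_count, h2, hn]) j
    (Finset.mem_univ _)

omit [Algebra.EssFiniteType k F] in
theorem dim_simple {S : IntermediateField k F} [Algebra.EssFiniteType k S] {t : F}
    (h : S ≤ adjoin k (Set.range fun _ : Unit => t)) : dim k S ≤ 1 :=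
  haveI := Lin62.eft_of_top (Lin62.adjoin_sub (k := k) fun _ : Unit => t)
  (dim_le (IntermediateField.inclusion h)).trans
    (Lin62.dim_le_card (Lin62.adjoin_sub (k := k) fun _ : Unit => t))

end Num

section Cls

variable {B : Th} {K : Type} [Field K] [Algebra ℂ K] {J : Type} [Fintype J] [DecidableEq J]

theorem prod_eq_pc {L : List J} {ν : J → ℕ} (hL : ∀ j, L.count j = ν j) (h : J → BD ℂ K) :
    ∏ j, B.c1 (h j) ^ ν j = pc B (L.map h) := by
  rw [pc, List.map_map, Finset.prod_list_map_count]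
  refine (Finset.prod_subset (Finset.subset_univ _) fun j _ hj => ?_).symm.trans
    (Finset.prod_congr rfl fun j _ => by rw [hL]; rfl)
  rw [← hL, List.count_eq_zero_of_not_mem (by simpa using hj), pow_zero]

theorem exists_count (ν : J → ℕ) : ∃ L : List J, ∀ j, L.count j = ν j :=
  ⟨(∑ j, Multiset.replicate (ν j) j).toList, fun j => by
    rw [← Multiset.coe_count, Multiset.coe_toList, Multiset.count_sum']
    simp [Multiset.count_replicate]⟩

theorem ty_pc (hB : B.Ax) : ∀ l : List (BD ℂ K), pc B l ∈ B.ty K l.length l.length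
  | [] => hB.ty_one
  | a :: l => by
    rw [pc_cons, List.length_cons, add_comm]
    exact hB.ty_mul (hB.ty_c1 a) (ty_pc hB l)

theorem itg_pc (hB : B.Ax) [Algebra.EssFiniteType ℂ K] (l : List (BD ℂ K)) :
    B.itg K (pc B l) = bnum (l.map (up ℂ)) := by
  by_cases h : l.length ≤ dim ℂ K
  · have h1 := fib hB (K := ℂ) 1 l (by rwa [dim_self, add_zero])
    rwa [map_one, mul_one, hB.itg_one, mul_one] at h1
  · rw [hB.ty_itg (ty_pc hB l) (Or.inl (by omega)), bnum_of_ne (by rw [List.length_map]; omega),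
      Int.cast_zero]

end Cls

section Line

variable {E ι : Type} [Field E]

/-- the parameter of a point of a line is a rational function of its coordinates -/
theorem mem_of_line {k : Type} [Field k] [Algebra k E] (S : IntermediateField k E) {p : ι → E[X]}
    (h1 : ∀ i, (p i).natDegree ≤ 1) (h2 : ∀ t, ∃ i, hv 1 (p i) t ≠ 0)
    (h3 : ∀ i l, (p i).coeff l ∈ S) {t : E} (h4 : ∀ i i', (p i).eval t / (p i').eval t ∈ S) :
    t ∈ S := by
  have he : ∀ i s, (p i).eval s = (p i).coeff 1 * s + (p i).coeff 0 := fun i s => by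
    conv_lhs => rw [eq_X_add_C_of_natDegree_le_one (h1 i)]
    simp
  obtain ⟨i₀, h5⟩ := h2 none
  obtain ⟨i₁, h6⟩ := h2 (some (-(p i₀).coeff 0 / (p i₀).coeff 1))
  obtain ⟨i₂, h7⟩ := h2 (some t)
  change (p i₀).coeff 1 ≠ 0 at h5
  change (p i₁).eval _ ≠ 0 at h6
  change (p i₂).eval t ≠ 0 at h7
  have h8 : (p i₀).coeff 1 * (p i₁).coeff 0 - (p i₁).coeff 1 * (p i₀).coeff 0 ≠ 0 := fun h => h6 (by
    rw [he]
    field_simp
    linear_combination h)
  have h9 : t = ((p i₁).coeff 0 * ((p i₀).eval t / (p i₂).eval t) -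
      (p i₀).coeff 0 * ((p i₁).eval t / (p i₂).eval t)) /
      ((p i₀).coeff 1 * ((p i₁).eval t / (p i₂).eval t) -
        (p i₁).coeff 1 * ((p i₀).eval t / (p i₂).eval t)) := by
    rw [← mul_div_assoc, ← mul_div_assoc, ← mul_div_assoc, ← mul_div_assoc, ← sub_div, ← sub_div,
      div_div_div_cancel_right₀ h7, he i₀, he i₁, eq_div_iff (fun h => h8 (by linear_combination h))]
    ring
  rw [h9]
  exact div_mem (sub_mem (mul_mem (h3 _ _) (h4 _ _)) (mul_mem (h3 _ _) (h4 _ _)))
    (sub_mem (mul_mem (h3 _ _) (h4 _ _)) (mul_mem (h3 _ _) (h4 _ _)))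

theorem hv_mem {k : Type} [Field k] [Algebra k E] (S : IntermediateField k E) {p : E[X]}
    (h : ∀ l, p.coeff l ∈ S) (d : ℕ) {t : Option E} (ht : ∀ s, t = some s → s ∈ S) :
    hv d p t ∈ S := by
  cases t with
  | none => exact h d
  | some s =>
    change p.eval s ∈ S
    rw [eval_eq_sum_range]
    exact sum_mem fun l _ => mul_mem (h l) (pow_mem (ht s rfl) l)

end Line

/-- **positivity of the insertion** -/
theorem posStmt : PosStmt := by
  intro B hB J _ _ io _ _ ν j₁ M _ q₀ E _ _ _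
  classical
  refine ⟨fun y => ?_,
    fun T d K _ _ _ f hL g x a b c ⟨β, μ, s, hμ, hs, hg⟩ hM ha hb hc' hE hcf => ?_⟩
  · obtain ⟨L, hL⟩ := exists_count ν
    obtain ⟨L', hL'⟩ := exists_count fun _ : M => 1
    have h1 := prod_eq_pc (B := B) hL' fun q => ln (y q) j₁
    simp only [pow_one] at h1
    have h2 : 0 ≤ bnum ((L'.map (fun q => ln (y q) j₁) ++ L.map (ln (y q₀))).map (up ℂ)) :=
      bnum_nonneg fun a ha => by
        simp only [List.map_append, List.map_map, List.mem_append, List.mem_map] at ha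
        rcases ha with ⟨q, -, rfl⟩ | ⟨j, -, rfl⟩ <;> exact (Free.up (K := ℂ) (free_mxf _)).nef
    refine ⟨_, Eq.trans ?_ (congrArg Int.cast (Int.toNat_of_nonneg h2).symm)⟩
    rw [← itg_pc hB, pc_append, ← h1, ← prod_eq_pc hL]
    rfl
  letI : Algebra K E := β.toRingHom.toAlgebra
  haveI : IsScalarTower ℂ K E := IsScalarTower.of_algebraMap_eq fun c => (β.commutes c).symm
  haveI : CharZero K := charZero_of_injective_algebraMap (algebraMap ℂ K).injective
  haveI : Algebra.EssFiniteType K E := Algebra.EssFiniteType.of_comp ℂ K E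
  have hf := hL.cp.map (β : K →+* E)
  choose u t hu ht using fun q => exists_hx (w := μ *ᵥ hx (x q)) fun h =>
    hx_ne _ (Matrix.eq_zero_of_mulVec_eq_zero hμ h)
  have hy : ∀ q j i, pt d g (x q) j i =
      s j * u q ^ d j * hv (d j) ((f j i).map (β : K →+* E)) (t q) := fun q j i => by
    rw [pt, hg, hv_C_mul, hv_mob, ht, hev_smul, hev_hx (hf.1 j i), mul_assoc]
  have hsu : ∀ q j, s j * u q ^ d j ≠ 0 := fun q j => mul_ne_zero (hs j) (pow_ne_zero _ (hu q))
  have hco : ∀ (S : IntermediateField K E) j i l, ((f j i).map (β : K →+* E)).coeff l ∈ S :=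
    fun S j i l => by rw [coeff_map]; exact S.algebraMap_mem _
  -- the base
  have hnz : ∀ j, ν j ≠ 0 → ∃ i, (f j i).coeff 0 ≠ 0 := fun j hj => hL.zero j hj ▸ hL.cp.2.1 j
  obtain ⟨L, hL1, hL2⟩ := exists_list (k := ℂ) (fun j i => (f j i).coeff 0) ν hnz hL.dj hL.dm.symm
    fun z => isAlgebraic_algebraMap (⟨z, by
      change z ∈ bas ν fun j i => (f j i).coeff 0
      rw [hL.gen]
      exact IntermediateField.mem_top⟩ : adjoin ℂ _)
  have h1 : ∏ j, hc B j E (pt d g (x q₀)) ^ ν j = B.pb (LP.hom (IsScalarTower.toAlgHom ℂ K E))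
      (pc B (L.map fun j => mxf ℂ fun i => (f j i).coeff 0)) := by
    rw [← prod_eq_pc hL1, map_prod]
    refine Finset.prod_congr rfl fun j _ => ?_
    by_cases hj : ν j = 0
    · simp [hj]
    rw [map_pow, hB.pb_c1_hom, pb_mxf]
    have h2 : ∀ i, pt d g (x q₀) j i / (s j * u q₀ ^ d j) = β ((f j i).coeff 0) := fun i => by
      have h3 := hL.cp.1 j i
      rw [hy, mul_div_cancel_left₀ _ (hsu q₀ j)]
      rw [hL.zero j hj] at h3 ⊢
      rw [eq_C_of_natDegree_le_zero h3]
      cases t q₀ <;> simp [hv]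
    obtain ⟨i, hi⟩ := hnz j hj
    have h3 := lin_mxf_div (k := ℂ) (hsu q₀ j) (x := pt d g (x q₀) j) ⟨i, fun h =>
      (_root_.map_ne_zero β).2 hi (by rw [← h2, h, zero_div])⟩
    simp only [h2] at h3
    exact congrArg (· ^ ν j) (hB.c1_lin h3)
  -- the fibre
  have hq : ∀ q i i', pt d g (x q) j₁ i / pt d g (x q) j₁ i' =
      hv 1 ((f j₁ i).map (β : K →+* E)) (t q) / hv 1 ((f j₁ i').map (β : K →+* E)) (t q) :=
    fun q i i' => by rw [hy, hy, mul_div_mul_left _ _ (hsu q j₁), hL.one]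
  have hcp : Cp d g := _root_.funext (fun j => _root_.funext (hg j)) ▸ cp_mob hf hμ hs
  have hdK : dim K E = 3 := by
    have := dim_tower ℂ K E
    have := hL.dm
    omega
  obtain ⟨L', hL3, hL4⟩ := exists_list (k := K) (fun q => pt d g (x q) j₁) (fun _ => 1)
    (fun q _ => cp_hv hcp j₁ (x q))
    (fun q _ => dim_simple (t := (t q).getD 0) (IntermediateField.adjoin_le_iff.2 (by
      rintro _ ⟨i, i', rfl⟩
      have h2 : ∀ i, hv 1 ((f j₁ i).map (β : K →+* E)) (t q) ∈
          adjoin K (Set.range fun _ : Unit => (t q).getD 0) := fun i =>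
        hv_mem _ (hco _ _ _) _ fun s hs => IntermediateField.subset_adjoin _ _ ⟨(), by simp [hs]⟩
      rw [hq]
      exact div_mem (h2 _) (h2 _)))) (by simp [hM, hdK]) fun z => by
      set S := adjoin K {w | ∃ q i i', (1 : ℕ) ≠ 0 ∧ w = pt d g (x q) j₁ i / pt d g (x q) j₁ i'}
      have h2 : (⟨_, t, hf⟩ : Dat io d M E).Eqv ⟨g, x, hcp⟩ :=
        ⟨μ, s, hμ, hs, hg, fun q => ⟨u q, ht q⟩⟩
      have h3 : cfl g ≤ S.restrictScalars ℂ := by
        refine le_trans (IntermediateField.adjoin.mono _ _ _ fun w hw => Or.inl hw)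
          ((crd_le_of_eqv (eqv_symm h2) ⟨ha, hb, hc'⟩).trans (IntermediateField.adjoin_le_iff.2 ?_))
        rintro w (⟨j, i, i', l, l', rfl⟩ | ⟨q, hw⟩)
        · exact div_mem (hco S _ _ _) (hco S _ _ _)
        · refine mem_of_line S (hL.one ▸ hf.1 j₁) (hL.one ▸ cp_hv hf j₁) (hco S j₁) fun i i' => ?_
          have h4 := hq q i i'
          rw [show t q = some w from hw] at h4
          exact IntermediateField.subset_adjoin _ _ ⟨q, i, i', one_ne_zero, h4.symm⟩
      haveI : Module.Finite (cfl g) E :=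
        Module.finite_of_finrank_pos ((deg_pos_iff (cfl g).val).2 hcf.symm)
      exact isAlg_mono h3 (Algebra.IsAlgebraic.isAlgebraic z)
  have h2 := prod_eq_pc (B := B) hL3 fun q => ln (pt d g (x q)) j₁
  simp only [pow_one] at h2
  have h3 := length_of_ne hL4
  rw [List.length_map] at h3
  have h4 := fib hB (pc B (L.map fun j => mxf ℂ fun i => (f j i).coeff 0))
    (L'.map fun q => ln (pt d g (x q)) j₁) (by rw [List.length_map, h3, dim_tower ℂ K E, add_comm])
  rw [← h1, ← h2, itg_pc hB, List.map_map, List.map_map] at h4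
  simp only [Function.comp_def, ln, up_mxf] at h4
  refine h4.trans_ne ?_
  exact mul_ne_zero (Int.cast_ne_zero.2 hL4) (Int.cast_ne_zero.2 hL2)

end Crest.Agent.X262.NumPos
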